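import Mathlib

/-!
# P136: statement-level definitions (isotropic elasticity, displacement-to-traction map)
-/

open MeasureTheory Set
open scoped ContDiff Topology

noncomputable section
namespace Vale.Agent.P136

/-- Euclidean three-space. -/
abbrev E3 : Type := EuclideanSpace ℝ (Fin 3)

/-- The partial derivative in the `j`-th coordinate direction. -/
def pd (j : Fin 3) (f : E3 → ℝ) : E3 → ℝ :=
  fun x => fderiv ℝ f x (EuclideanSpace.single j 1)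

/-- The classical gradient matrix of a vector field: entry `(i, j)` is `∂_j u_i`. -/
def grad (u : Fin 3 → E3 → ℝ) : Fin 3 → Fin 3 → E3 → ℝ := fun i j => pd j (u i)

/-- Smooth compactly supported functions with support inside `U`. -/
def IsTest (U : Set E3) (ψ : E3 → ℝ) : Prop :=
  ContDiff ℝ ∞ ψ ∧ HasCompactSupport ψ ∧ tsupport ψ ⊆ U

/-- `u` lies in `H¹(Ω; ℝ³)` with weak gradient `G` (`G i j = ∂_j u_i`). -/
def IsH1 (Ω : Set E3) (u : Fin 3 → E3 → ℝ) (G : Fin 3 → Fin 3 → E3 → ℝ) : Prop :=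
  (∀ i, MemLp (u i) 2 (volume.restrict Ω)) ∧ (∀ i j, MemLp (G i j) 2 (volume.restrict Ω)) ∧
    ∀ i j ψ, IsTest Ω ψ → ∫ x in Ω, u i x * pd j ψ x = -∫ x in Ω, G i j x * ψ x

/-- `u` lies in `H¹₀(Ω; ℝ³)` (the `H¹`-closure of the test fields, i.e. zero trace), with weak
gradient `G`. -/
def IsH10 (Ω : Set E3) (u : Fin 3 → E3 → ℝ) (G : Fin 3 → Fin 3 → E3 → ℝ) : Prop :=
  IsH1 Ω u G ∧ ∀ δ : ℝ, 0 < δ → ∃ w : Fin 3 → E3 → ℝ, (∀ i, IsTest Ω (w i)) ∧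
    (∑ i, ∫ x in Ω, (u i x - w i x) ^ 2) + ∑ i, ∑ j, ∫ x in Ω, (G i j x - pd j (w i) x) ^ 2 < δ

/-- The elastic bilinear form `∫_Ω λ (div u)(div v) + 2 μ e(u) : e(v)`, written in terms of the
gradients `G` of `u` and `G'` of `v`. -/
def form (Ω : Set E3) (lam mu : E3 → ℝ) (G G' : Fin 3 → Fin 3 → E3 → ℝ) : ℝ :=
  ∫ x in Ω, (lam x * (∑ i, G i i x) * (∑ i, G' i i x) +
    2 * mu x * ∑ i, ∑ j, ((G i j x + G j i x) / 2) * ((G' i j x + G' j i x) / 2))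

/-- `u ∈ H¹(Ω)` (gradient `G`) is a weak solution of `L_{λ,μ} u = 0` in `Ω`. -/
def IsSol (Ω : Set E3) (lam mu : E3 → ℝ) (u : Fin 3 → E3 → ℝ)
    (G : Fin 3 → Fin 3 → E3 → ℝ) : Prop :=
  IsH1 Ω u G ∧ ∀ w : Fin 3 → E3 → ℝ, (∀ i, IsTest Ω (w i)) → form Ω lam mu G (grad w) = 0

/-- Equality of the displacement-to-traction maps: whenever `u₁`, `u₂` solve the two systems and
have the same trace `f`, the pairings `⟨Λ₁ f, g⟩` and `⟨Λ₂ f, g⟩` agree for every `v ∈ H¹` (with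
trace `g`). -/
def SameDN (Ω : Set E3) (lam₁ mu₁ lam₂ mu₂ : E3 → ℝ) : Prop :=
  ∀ (u₁ u₂ v : Fin 3 → E3 → ℝ) (G₁ G₂ G : Fin 3 → Fin 3 → E3 → ℝ),
    IsSol Ω lam₁ mu₁ u₁ G₁ → IsSol Ω lam₂ mu₂ u₂ G₂ → IsH10 Ω (u₁ - u₂) (G₁ - G₂) →
    IsH1 Ω v G → form Ω lam₁ mu₁ G₁ G = form Ω lam₂ mu₂ G₂ G

/-- A bounded connected domain with `C^∞` boundary: near each boundary point it is `{ρ > 0}` for a
smooth function `ρ` with nonzero differential. -/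
def SmoothDomain (Ω : Set E3) : Prop :=
  IsOpen Ω ∧ IsConnected Ω ∧ Bornology.IsBounded Ω ∧
    ∀ p ∈ frontier Ω, ∃ (ρ : E3 → ℝ) (U : Set E3), ContDiff ℝ ∞ ρ ∧ fderiv ℝ ρ p ≠ 0 ∧
      U ∈ 𝓝 p ∧ ∀ x ∈ U, (x ∈ Ω ↔ 0 < ρ x)

/-- Admissible smooth Lamé moduli on the closure of `Ω`. -/
def Admissible (Ω : Set E3) (lam mu : E3 → ℝ) : Prop :=
  ContDiff ℝ ∞ lam ∧ ContDiff ℝ ∞ mu ∧ ∀ x ∈ closure Ω, 0 < mu x ∧ 0 < 3 * lam x + 2 * mu x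

end Vale.Agent.P136
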